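import Vale.Agent.P092.H242.TPair
import Vale.Agent.P092.H132.MassX
import Vale.Agent.P092.H761.RankDefs

/-!
P092 (helper983), block [PAIR-F]: the pairing lemma for ping-pong families, in the form of the
field `pairF` of `H761.SharpData`, for covariant families of operators on an algebra of subsets of
a `D`-set.
-/

set_option linter.all false

open scoped InnerProductSpace ComplexOrder
open Filter Topology ContinuousLinearMap

namespace Vale.Agent.P092.H983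

open Vale.Agent.P092.H160 Vale.Agent.P092.H553 Vale.Agent.P092.H132
open Vale.Agent.P092.H761 (PairFam)
open Vale.Agent.P092.H242 (PData)

variable {Γ ι H D X : Type} [Group Γ] [Group D] [Fintype ι]
  [NormedAddCommGroup H] [InnerProductSpace ℂ H] [CompleteSpace H] {B : Base Γ ι H} {t : ℝ}
  {R : D → (H →L[ℂ] H)} [MulAction D X]

/-- An algebra of sets stable under translations. -/
structure SetAlg (D : Type) [Group D] {X : Type} [MulAction D X] (Ms : Set (Set X)) : Prop where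
  univ_mem : Set.univ ∈ Ms
  compl_mem : ∀ A ∈ Ms, Aᶜ ∈ Ms
  union_mem : ∀ A ∈ Ms, ∀ A' ∈ Ms, A ∪ A' ∈ Ms
  smul_mem : ∀ (v : D), ∀ A ∈ Ms, {x | v⁻¹ • x ∈ A} ∈ Ms

/-- Ping-pong families. -/
def PingX (Ms : Set (Set X)) (p : ℕ) (u : Fin p → D) : Prop :=
  ∃ Bm Bp : Fin p → Set X, (∀ l, Bm l ∈ Ms) ∧ (∀ l, Bp l ∈ Ms) ∧
    (∀ l l', l ≠ l' → Disjoint (Bm l) (Bm l')) ∧ (∀ l l', l ≠ l' → Disjoint (Bp l) (Bp l')) ∧
    ∀ l x, x ∉ Bm l → u l • x ∈ Bp l

section efx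

variable {Ms : Set (Set X)} {E : Set X → (H →L[ℂ] H)} (hR : TRep B t R) (hM : SetAlg D Ms)
  (hE : EFamX B R Ms E)

include hM

theorem ef_diff_mem {A A' : Set X} (hA : A ∈ Ms) (hA' : A' ∈ Ms) : A \ A' ∈ Ms := by
  have h1 : A \ A' = (Aᶜ ∪ A')ᶜ := by
    ext x; simp [Set.mem_diff]
  rw [h1]
  exact hM.compl_mem _ (hM.union_mem _ (hM.compl_mem _ hA) _ hA')

include hE

theorem ef_mono {A A' : Set X} (hA : A ∈ Ms) (hA' : A' ∈ Ms) (h : A ⊆ A') : E A ≤ E A' := by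
  have h1 : A ∪ (A' \ A) = A' := Set.union_diff_cancel h
  have h2 := hE.add A hA (A' \ A) (ef_diff_mem hM hA' hA) Set.disjoint_sdiff_right
  rw [h1] at h2
  rw [h2]
  exact le_add_of_nonneg_right (hE.nonneg _ (ef_diff_mem hM hA' hA))

theorem ef_finite {p : ℕ} {A : Fin p → Set X} (hA : ∀ l, A l ∈ Ms)
    (hd : ∀ l l', l ≠ l' → Disjoint (A l) (A l')) (s : Finset (Fin p)) :
    ∃ A' ∈ Ms, (∀ l, l ∉ s → Disjoint (A l) A') ∧ E A' = ∑ l ∈ s, E (A l) := by
  classical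
  induction s using Finset.induction_on with
  | empty =>
    refine ⟨∅, ?_, fun l _ => Set.disjoint_empty _, ?_⟩
    · have := hM.compl_mem _ hM.univ_mem
      rwa [Set.compl_univ] at this
    · have h0 : (∅ : Set X) ∈ Ms := by
        have := hM.compl_mem _ hM.univ_mem
        rwa [Set.compl_univ] at this
      have h1 := hE.add ∅ h0 ∅ h0 (Set.disjoint_empty _)
      rw [Set.union_empty, left_eq_add] at h1
      rw [h1, Finset.sum_empty]
  | insert l s hl ih =>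
    obtain ⟨A', hA', hdis, hsum⟩ := ih
    refine ⟨A l ∪ A', hM.union_mem _ (hA l) _ hA', fun l' hl' => ?_, ?_⟩
    · rw [Set.disjoint_union_right]
      exact ⟨hd l' l (fun h => hl' (h ▸ Finset.mem_insert_self _ _)),
        hdis l' fun h => hl' (Finset.mem_insert_of_mem h)⟩
    · rw [hE.add _ (hA l) _ hA' (hdis l hl), hsum, Finset.sum_insert hl]

include hR

theorem ef_le_one {A : Set X} (hA : A ∈ Ms) : E A ≤ 1 := by
  have h1 := ef_mono hM hE hA hM.univ_mem (Set.subset_univ _)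
  rw [hE.univ] at h1
  refine h1.trans ?_
  rw [← sub_nonneg]
  have hs : adjoint (1 - R 1) = 1 - R 1 := by
    rw [map_sub, hR.adj_one]
    congr 1
    rw [← star_eq_adjoint, star_one]
  refine H108.nonneg_of_inner hs fun ζ => ?_
  rw [sub_apply, inner_sub_right, Complex.sub_re, hR.one_re]
  have h2 : (⟪ζ, (1 : H →L[ℂ] H) ζ⟫_ℂ).re = ‖ζ‖ ^ 2 := by
    change (⟪ζ, ζ⟫_ℂ).re = _
    rw [inner_self_eq_norm_sq_to_K]; norm_cast
  rw [h2]
  have := hR.norm_one_le ζ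
  have h3 : ‖R 1 ζ‖ ^ 2 ≤ ‖ζ‖ ^ 2 := by gcongr
  linarith

theorem ef_norm_le {A : Set X} (hA : A ∈ Ms) : ‖E A‖ ≤ 1 :=
  (CStarAlgebra.norm_le_one_iff_of_nonneg (E A) (hE.nonneg A hA)).2 (ef_le_one hR hM hE hA)

theorem ef_sum_le {p : ℕ} {A : Fin p → Set X} (hA : ∀ l, A l ∈ Ms)
    (hd : ∀ l l', l ≠ l' → Disjoint (A l) (A l')) (ξ : H) :
    ∑ l, (⟪ξ, E (A l) ξ⟫_ℂ).re ≤ ‖ξ‖ ^ 2 := by
  obtain ⟨A', hA', -, hsum⟩ := ef_finite hM hE hA hd Finset.univ
  have h1 : ∑ l, (⟪ξ, E (A l) ξ⟫_ℂ).re = (⟪ξ, E A' ξ⟫_ℂ).re := by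
    rw [hsum, ContinuousLinearMap.sum_apply, inner_sum, Complex.re_sum]
  rw [h1]
  refine (Complex.re_le_norm _).trans ((norm_inner_le_norm _ _).trans ?_)
  have h2 := (E A').le_opNorm ξ
  have h3 := ef_norm_le hR hM hE hA'
  rw [sq]
  gcongr
  refine h2.trans ?_
  exact mul_le_of_le_one_left (norm_nonneg _) h3

end efx

/-- `PairFam` and `PData` are the same thing. -/
theorem pdata_of_fam [DecidableEq Γ] {U : Ultrafilter ℕ} {S Bf : Finset Γ} {ε : ℝ}
    {F G : ℕ → Γ → Γ → ℝ} (h : PairFam U S ε Bf F G) : PData U S ε Bf F G where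
  a0 := h.nonnegF
  b0 := h.nonnegH
  aoff := h.offF
  boff := h.offH
  a1 := h.sumF
  b1 := h.sumH
  left := fun s hs => by
    filter_upwards [h.left s hs] with k hk g
    have e1 : H859.BB Bf s = Bf ∪ Bf.image (fun b => s⁻¹ * b) := by
      ext x
      simp [H859.BB]
    rw [e1]
    exact hk g
  right := h.right

/-- **[PAIR-F]** -/
theorem pairF_field [DecidableEq Γ] [Countable Γ] (hR : TRep B t R) {Ms : Set (Set X)}
    (hM : SetAlg D Ms) {E : Set X → (H →L[ℂ] H)} (hE : EFamX B R Ms E) :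
    ∃ A : ℝ, ∀ (p : ℕ) (u : Fin p → D), PingX Ms p u → ∀ (U : Ultrafilter ℕ) (z : ℕ → D),
    (∀ k l, z k * u l = u l * z k) → ∀ c : ℝ, 0 < c →
    (∀ (S : Finset Γ) (ε : ℝ), 0 < ε → ∃ (Bf : Finset Γ) (F G : ℕ → Γ → Γ → ℝ),
      PairFam U S ε Bf F G ∧
      ∀ l, ∀ᶠ k in U, c ≤ massX B R (z k * u l) (fun g => ∑ b ∈ Bf, F k b g * G k b g)) →
    (p : ℝ) * c ≤ A * Real.sqrt p := by
  refine ⟨2 * Real.sqrt 2 * ∑ i, ‖B.ep i‖ ^ 2, fun p u hu U z hz c hc h => ?_⟩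
  obtain ⟨Bm, Bp, hm, hp, hdm, hdp, hpp⟩ := hu
  have hsub : ∀ A ∈ Ms, R 1 - E A = E Aᶜ := by
    intro A hA
    have h1 := hE.add A hA Aᶜ (hM.compl_mem A hA) disjoint_compl_right
    rw [Set.union_compl_self, hE.univ] at h1
    rw [h1]; abel
  have key := H242.pairF (U := U) (z := z) (σ := Fin p) hR u hz (fun l => E (Bm l))
    (fun l => E (Bp l)) (fun l => hE.nonneg _ (hm l))
    (fun l => by rw [hsub _ (hm l)]; exact hE.nonneg _ (hM.compl_mem _ (hm l)))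
    (fun l => hE.nonneg _ (hp l)) (fun l => hE.sc _ (hm l)) (fun l => hE.sc _ (hp l))
    (fun l ξ => ?_) (q := 1) (fun ξ => ?_) (fun ξ => ?_) (fun l ξ => ?_) (c := c)
    (fun S ε hε => ?_)
  · rw [Fintype.card_fin, mul_one] at key
    exact key
  · refine (Complex.re_le_norm _).trans ((norm_inner_le_norm _ _).trans ?_)
    have h2 := (E (Bp l)).le_opNorm ξ
    have h3 := ef_norm_le hR hM hE (hp l)
    rw [sq]
    refine mul_le_mul_of_nonneg_left (h2.trans ?_) (norm_nonneg _)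
    exact mul_le_of_le_one_left (norm_nonneg _) h3
  · rw [one_mul]; exact ef_sum_le hR hM hE hm hdm ξ
  · rw [one_mul]; exact ef_sum_le hR hM hE hp hdp ξ
  · rw [hsub _ (hm l), ← hR.inner_right, ← mul_ap, ← mul_ap]
    rw [hE.cov (u l) _ (hM.compl_mem _ (hm l))]
    have h2 : {x | (u l)⁻¹ • x ∈ (Bm l)ᶜ} ⊆ Bp l := by
      intro x hx
      have h3 := hpp l ((u l)⁻¹ • x) hx
      rwa [smul_inv_smul] at h3
    have h3 := ef_mono hM hE (hM.smul_mem (u l) _ (hM.compl_mem _ (hm l))) (hp l) h2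
    have h4 := H108.inner_nonneg_of_nonneg (sub_nonneg.2 h3) ξ
    rw [sub_apply, inner_sub_right, Complex.sub_re] at h4
    linarith
  · obtain ⟨Bf, F, G, hPF, hl⟩ := h S ε hε
    have hD := pdata_of_fam hPF
    refine ⟨Bf, F, G, hD, fun l => ?_⟩
    have hb : ∀ k g, |∑ b ∈ Bf, F k b g * G k b g| ≤ ∑ b ∈ Bf, 1 * 1 := fun k g =>
      (Finset.abs_sum_le_sum_abs _ _).trans (Finset.sum_le_sum fun b _ =>
        H242.abs_mul_le' (hD.a_abs k b g) (hD.b_abs k b g))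
    exact ge_of_tendsto (massX_spec (U := U) (z := z) hR hb (u l)) (hl l)

end Vale.Agent.P092.H983
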